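import Vale.Agent.P336.H117.Pieces

/-!
# P336: from closed narrow CNF sets to all narrow CNF sets
-/

set_option linter.unusedSectionVars false

namespace Vale.Agent.P336.Shear

open Finset

open Vale.Agent.P336.Expansion (cube mem_cube CCode)

variable {W : Type} [Fintype W] [DecidableEq W]

theorem pr_mono_left {U U' : Finset W} (h : U ⊆ U') (D : Finset (W → Bool)) :
    pr U D ≤ pr U' D := by
  have h1 : (D.image (mask U')).image (mask U) = D.image (mask U) := by
    rw [image_image]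
    refine image_congr fun x _ => ?_
    funext v
    by_cases hv : v ∈ U
    · simp [mask, hv, h hv]
    · simp [mask, hv]
  unfold pr
  rw [← h1]
  exact card_image_le

/-- The weight of a piece. -/
noncomputable def aw (J : Finset W) (p : Finset W × Finset (W → Bool)) : ℝ :=
  ∑ U ∈ J.powerset, (1 / 2 : ℝ) ^ U.card * (if p.1 ⊆ U then (pr U p.2 : ℝ) else 0)

theorem aw_nonneg (J : Finset W) (p : Finset W × Finset (W → Bool)) : 0 ≤ aw J p := by
  refine sum_nonneg fun U _ => mul_nonneg (by positivity) ?_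
  split_ifs <;> positivity

theorem sum_half_pow (J : Finset W) :
    ∑ U ∈ J.powerset, (1 / 2 : ℝ) ^ U.card * 2 ^ U.card = 2 ^ J.card := by
  have h1 : ∀ U ∈ J.powerset, (1 / 2 : ℝ) ^ U.card * 2 ^ U.card = 1 := fun U _ => by
    rw [← mul_pow]; norm_num
  rw [sum_congr rfl h1, sum_const, card_powerset]
  simp

/-- The weights have sum at most `2 ^ |J|`. -/
theorem sum_aw_le {J : Finset W} {F : Finset (W → Bool)}
    {L : List (Finset W × Finset (W → Bool))}
    (h : ∀ U, U ⊆ J → (L.map fun p => if p.1 ⊆ U then pr U p.2 else 0).sum ≤ pr U F) :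
    (L.map (aw J)).sum ≤ 2 ^ J.card := by
  have h1 : (L.map (aw J)).sum = ∑ U ∈ J.powerset, (1 / 2 : ℝ) ^ U.card *
      (((L.map fun p => if p.1 ⊆ U then pr U p.2 else 0).sum : ℕ) : ℝ) := by
    clear h
    induction L with
    | nil => simp
    | cons p L ih =>
      rw [List.map_cons, List.sum_cons, ih, aw, ← sum_add_distrib]
      refine sum_congr rfl fun U _ => ?_
      rw [List.map_cons, List.sum_cons]
      push_cast
      ring
  rw [h1, ← sum_half_pow J]
  refine sum_le_sum fun U hU => mul_le_mul_of_nonneg_left ?_ (by positivity)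
  have h2 := (h U (mem_powerset.1 hU)).trans (pr_le U F)
  exact_mod_cast h2

/-- The weight of a piece is large. -/
theorem aw_ge {J Z : Finset W} {T : Finset (W → Bool)} (hZ : Z ⊆ J) :
    (1 / 2 : ℝ) ^ Z.card * SS (J \ Z) T ≤ aw J (Z, T) := by
  classical
  unfold SS aw
  rw [mul_sum]
  have hinj : Set.InjOn (fun U : Finset W => U ∪ Z) ((J \ Z).powerset : Set (Finset W)) := by
    intro U hU U' hU' h
    have hU1 := mem_powerset.1 (mem_coe.1 hU)
    have hU2 := mem_powerset.1 (mem_coe.1 hU')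
    ext v
    by_cases hv : v ∈ Z
    · constructor
      · intro h1; exact absurd hv (mem_sdiff.1 (hU1 h1)).2
      · intro h1; exact absurd hv (mem_sdiff.1 (hU2 h1)).2
    · have h3 : v ∈ U ∪ Z ↔ v ∈ U' ∪ Z := by
        have : U ∪ Z = U' ∪ Z := h
        rw [this]
      simpa [hv] using h3
  have h1 : ∑ U ∈ (J \ Z).powerset, (1 / 2 : ℝ) ^ Z.card * ((1 / 2 : ℝ) ^ U.card * pr U T) ≤
      ∑ U ∈ (J \ Z).powerset, (1 / 2 : ℝ) ^ (U ∪ Z).card *
        (if Z ⊆ U ∪ Z then (pr (U ∪ Z) T : ℝ) else 0) := by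
    refine sum_le_sum fun U hU => ?_
    have hd : Disjoint U Z := by
      rw [disjoint_left]
      intro v hv
      exact (mem_sdiff.1 (mem_powerset.1 hU hv)).2
    rw [if_pos subset_union_right, card_union_of_disjoint hd, pow_add]
    have h2 : (pr U T : ℝ) ≤ pr (U ∪ Z) T := by
      exact_mod_cast pr_mono_left subset_union_left T
    have h3 : (0 : ℝ) ≤ (1 / 2) ^ U.card * (1 / 2) ^ Z.card := by positivity
    nlinarith
  refine h1.trans ?_
  rw [← sum_image (f := fun U => (1 / 2 : ℝ) ^ U.card *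
    (if Z ⊆ U then (pr U T : ℝ) else 0)) (g := fun U => U ∪ Z) (by
      intro U hU U' hU' h; exact hinj hU hU' h)]
  refine sum_le_sum_of_subset_of_nonneg ?_ fun U _ _ => ?_
  · intro U hU
    obtain ⟨U', hU', rfl⟩ := mem_image.1 hU
    rw [mem_powerset]
    exact union_subset ((mem_powerset.1 hU').trans sdiff_subset) hZ
  · refine mul_nonneg (by positivity) ?_
    split_ifs <;> positivity

/-- The numerical form. -/
theorem aw_pow_four {t : ℕ} {J Z : Finset W} {y : W → Bool} {T F : Finset (W → Bool)}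
    (hZ : Z ⊆ J) (hT : IsT t J y T) (hc : Cst Z T) (hF : F ⊆ cube J y)
    (hcard : T.card * 2 ^ (6 * Z.card) ≤ F.card) :
    (2 : ℝ) ^ J.card * T.card ^ 3 ≤ aw J (Z, T) ^ 4 := by
  have h1 := shear (J \ Z) T (by
    intro x hx x' hx' v hv
    by_cases hvJ : v ∈ J
    · have : v ∈ Z := by
        by_contra h
        exact hv (mem_sdiff.2 ⟨hvJ, h⟩)
      exact hc x hx x' hx' v this
    · rw [mem_cube.1 (hT.1 hx) v hvJ, mem_cube.1 (hT.1 hx') v hvJ])
  have h2 := aw_ge (T := T) hZ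
  have h3 : ((1 / 2 : ℝ) ^ Z.card * SS (J \ Z) T) ^ 2 ≤ aw J (Z, T) ^ 2 :=
    pow_le_pow_left₀ (mul_nonneg (by positivity) (SS_nonneg _ _)) h2 2
  have hJ : (J \ Z).card + Z.card = J.card := card_sdiff_add_card_eq_card hZ
  set s := SS (J \ Z) T
  set a := aw J (Z, T)
  set j := (J \ Z).card
  set f := Z.card
  have hFc : F.card ≤ 2 ^ J.card := by
    have h5 : pr J F = F.card := by
      unfold pr
      refine card_image_of_injOn fun x hx x' hx' hxx => ?_
      funext v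
      by_cases hv : v ∈ J
      · exact mask_eq_iff.1 hxx v hv
      · rw [mem_cube.1 (hF hx) v hv, mem_cube.1 (hF hx') v hv]
    rw [← h5]
    exact pr_le J F
  have h6 : (T.card : ℝ) * 2 ^ (6 * f) ≤ 2 ^ J.card := by
    exact_mod_cast hcard.trans hFc
  have h7 : (1 / 4 : ℝ) ^ f * (2 ^ j * T.card) ≤ a ^ 2 := by
    refine le_trans ?_ h3
    rw [mul_pow, ← pow_mul, mul_comm f 2, pow_mul]
    norm_num
    have h8 : (0 : ℝ) ≤ (1 / 4) ^ f := by positivity
    simpa using mul_le_mul_of_nonneg_left h1 h8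
  have h8 : ((1 / 4 : ℝ) ^ f * (2 ^ j * T.card)) ^ 2 ≤ a ^ 4 := by
    calc ((1 / 4 : ℝ) ^ f * (2 ^ j * T.card)) ^ 2 ≤ (a ^ 2) ^ 2 :=
          pow_le_pow_left₀ (by positivity) h7 2
      _ = a ^ 4 := by ring
  refine le_trans ?_ h8
  have h9 : ((1 / 4 : ℝ) ^ f * (2 ^ j * T.card)) ^ 2 =
      (1 / 64 : ℝ) ^ f * (2 ^ J.card * 2 ^ J.card) * T.card ^ 2 := by
    rw [← hJ]
    have e1 : (1 / 64 : ℝ) ^ f * (2 ^ f * 2 ^ f) = ((1 / 4) ^ f) ^ 2 := by
      rw [← mul_pow, ← mul_pow, ← pow_mul, mul_comm f 2, pow_mul]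
      norm_num
    rw [pow_add]
    calc ((1 / 4 : ℝ) ^ f * (2 ^ j * T.card)) ^ 2 =
        ((1 / 4) ^ f) ^ 2 * (2 ^ j * 2 ^ j) * T.card ^ 2 := by ring
      _ = (1 / 64 : ℝ) ^ f * (2 ^ f * 2 ^ f) * (2 ^ j * 2 ^ j) * T.card ^ 2 := by rw [e1]
      _ = _ := by ring
  rw [h9]
  have h10 : (1 / 64 : ℝ) ^ f * 2 ^ (6 * f) = 1 := by
    rw [pow_mul, ← mul_pow]
    norm_num
  have h11 : (T.card : ℝ) ≤ (1 / 64 : ℝ) ^ f * 2 ^ J.card := by
    calc (T.card : ℝ) = (1 / 64 : ℝ) ^ f * (T.card * 2 ^ (6 * f)) := by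
          calc (T.card : ℝ) = T.card * ((1 / 64 : ℝ) ^ f * 2 ^ (6 * f)) := by rw [h10, mul_one]
            _ = _ := by ring
      _ ≤ (1 / 64 : ℝ) ^ f * 2 ^ J.card := mul_le_mul_of_nonneg_left h6 (by positivity)
  calc (2 : ℝ) ^ J.card * T.card ^ 3 = (2 ^ J.card * T.card ^ 2) * T.card := by ring
    _ ≤ (2 ^ J.card * T.card ^ 2) * ((1 / 64 : ℝ) ^ f * 2 ^ J.card) :=
        mul_le_mul_of_nonneg_left h11 (by positivity)
    _ = _ := by ring

/-- **Main bound**: closed narrow CNF sets are enough. -/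
theorem bound_of_closed {t : ℕ} (ht : 1 ≤ t) {J : Finset W} {y : W → Bool}
    {F : Finset (W → Bool)} (hF : IsT t J y F) {h : (W → Bool) → ℝ} (hh : ∀ z, |h z| ≤ 1)
    {κ : ℝ} (hκ : 0 ≤ κ)
    (hT : ∀ T, IsT t J y T → Cls t T → |∑ z ∈ T, h z| ≤ κ ^ 4 * 2 ^ J.card) :
    |∑ z ∈ F, h z| ≤ κ * 2 ^ J.card := by
  obtain ⟨L, h1, h2, h3⟩ := pieces ht J y F.card F ∅ rfl hF (empty_subset _)
    (fun _ _ _ _ v hv => absurd hv (notMem_empty v))
  rw [h2 h]
  have key : ∀ l : List (Finset W × Finset (W → Bool)), (∀ p ∈ l, p ∈ L) →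
      |(l.map fun p => ∑ z ∈ p.2, h z).sum| ≤ κ * (l.map (aw J)).sum := by
    intro l
    induction l with
    | nil => intro _; simp
    | cons p l ih =>
      intro hl
      obtain ⟨q1, q2, q3, q4, q5, q6⟩ := h1 p (hl p List.mem_cons_self)
      have h5 := ih fun p' hp' => hl p' (List.mem_cons_of_mem _ hp')
      rw [List.map_cons, List.sum_cons, List.map_cons, List.sum_cons, mul_add]
      refine (abs_add_le _ _).trans (add_le_add ?_ h5)
      rw [card_empty, mul_zero, pow_zero, mul_one] at q6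
      have h6 := aw_pow_four (t := t) q2 q3 q5 hF.1 q6
      have h7 : |∑ z ∈ p.2, h z| ≤ p.2.card := by
        refine (abs_sum_le_sum_abs _ _).trans ?_
        calc ∑ z ∈ p.2, |h z| ≤ ∑ z ∈ p.2, (1 : ℝ) := sum_le_sum fun z _ => hh z
          _ = p.2.card := by simp
      have h8 := hT p.2 q3 q4
      set c := |∑ z ∈ p.2, h z|
      have hc0 : 0 ≤ c := abs_nonneg _
      have h9 : c ^ 4 ≤ (κ * aw J p) ^ 4 := by
        calc c ^ 4 = c ^ 3 * c := by ring
          _ ≤ (p.2.card : ℝ) ^ 3 * (κ ^ 4 * 2 ^ J.card) :=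
              mul_le_mul (pow_le_pow_left₀ hc0 h7 3) h8 hc0 (by positivity)
          _ = κ ^ 4 * (2 ^ J.card * p.2.card ^ 3) := by ring
          _ ≤ κ ^ 4 * aw J p ^ 4 := mul_le_mul_of_nonneg_left h6 (by positivity)
          _ = _ := by ring
      exact le_of_pow_le_pow_left₀ (by norm_num) (mul_nonneg hκ (aw_nonneg _ _)) h9
  refine (key L fun _ hp => hp).trans (mul_le_mul_of_nonneg_left (sum_aw_le h3) hκ)

end Vale.Agent.P336.Shear
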