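import Vale.Agent.P336.H117.Bound

/-!
# P336: closed narrow CNF sets are closures of few points
-/

set_option linter.unusedSectionVars false

namespace Vale.Agent.P336.Shear

open Finset

open Vale.Agent.P336.Expansion (cube mem_cube CCode)

variable {W : Type} [Fintype W] [DecidableEq W]

open Classical in
/-- The points of the subcube satisfying all narrow clauses which hold at all points `X i`. -/
noncomputable def clo (t : ℕ) {q : ℕ} (J : Finset W) (y : W → Bool)
    (X : Fin q → (W → Bool)) : Finset (W → Bool) :=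
  (cube J y).filter fun z => ∀ k : CCode W t, k.IsFalse z → ∃ i, k.IsFalse (X i)

theorem mem_clo {t q : ℕ} {J : Finset W} {y : W → Bool} {X : Fin q → (W → Bool)}
    {z : W → Bool} : z ∈ clo t J y X ↔ z ∈ cube J y ∧
      ∀ k : CCode W t, k.IsFalse z → ∃ i, k.IsFalse (X i) := by
  simp [clo]

theorem card_CCode (t : ℕ) : Fintype.card (CCode W t) = (1 + 2 * Fintype.card W) ^ t := by
  simp only [Fintype.card_pi, prod_const, Fintype.card_option, Fintype.card_prod,
    Fintype.card_bool, card_univ, Fintype.card_fin]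
  congr 1
  ring

/-- Few points of a closed set falsify all clauses which are false somewhere. -/
theorem exists_hit {t q : ℕ} {T : Finset (W → Bool)} (hne : T.Nonempty) (hcl : Cls t T)
    (hq : (1 + 2 * Fintype.card W) ^ t * (2 ^ (6 * t) - 1) ^ q < (2 ^ (6 * t)) ^ q) :
    ∃ X : Fin q → (W → Bool), (∀ i, X i ∈ T) ∧
      ∀ k : CCode W t, (fal k T).Nonempty → ∃ i, k.IsFalse (X i) := by
  classical
  by_contra hcon
  push Not at hcon
  set M := 2 ^ (6 * t) with hM
  have hM1 : 1 ≤ M := Nat.one_le_two_pow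
  have h1 : (Fintype.piFinset fun _ : Fin q => T) ⊆
      (univ.filter fun k : CCode W t => (fal k T).Nonempty).biUnion
        fun k => Fintype.piFinset fun _ : Fin q => tru k T := by
    intro X hX
    rw [Fintype.mem_piFinset] at hX
    obtain ⟨k, hk, hk2⟩ := hcon X hX
    rw [mem_biUnion]
    refine ⟨k, by simpa using hk, ?_⟩
    rw [Fintype.mem_piFinset]
    exact fun i => mem_tru.2 ⟨hX i, hk2 i⟩
  have h2 := (card_le_card h1).trans card_biUnion_le
  rw [Fintype.card_piFinset, prod_const, card_univ, Fintype.card_fin] at h2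
  have h3 : ∀ k ∈ univ.filter fun k : CCode W t => (fal k T).Nonempty,
      M ^ q * (Fintype.piFinset fun _ : Fin q => tru k T).card ≤ (M - 1) ^ q * T.card ^ q := by
    intro k hk
    rw [Fintype.card_piFinset, prod_const, card_univ, Fintype.card_fin, ← mul_pow, ← mul_pow]
    refine Nat.pow_le_pow_left ?_ q
    have h4 := hcl k (by simpa using hk)
    have h5 := card_tru_add_fal k T
    rw [← hM] at h4
    obtain ⟨m, hm⟩ : ∃ m, M = m + 1 := ⟨M - 1, by omega⟩
    rw [hm] at h4 ⊢
    rw [Nat.add_sub_cancel]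
    nlinarith
  have h4 : M ^ q * T.card ^ q ≤
      (1 + 2 * Fintype.card W) ^ t * ((M - 1) ^ q * T.card ^ q) := by
    calc M ^ q * T.card ^ q ≤ M ^ q * ∑ k ∈ univ.filter (fun k : CCode W t => (fal k T).Nonempty),
          (Fintype.piFinset fun _ : Fin q => tru k T).card := Nat.mul_le_mul_left _ h2
      _ = ∑ k ∈ univ.filter (fun k : CCode W t => (fal k T).Nonempty),
          M ^ q * (Fintype.piFinset fun _ : Fin q => tru k T).card := mul_sum _ _ _
      _ ≤ ∑ k ∈ univ.filter (fun k : CCode W t => (fal k T).Nonempty),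
          (M - 1) ^ q * T.card ^ q := sum_le_sum h3
      _ = (univ.filter (fun k : CCode W t => (fal k T).Nonempty)).card *
          ((M - 1) ^ q * T.card ^ q) := by rw [sum_const, smul_eq_mul]
      _ ≤ _ := by
          refine Nat.mul_le_mul_right _ ?_
          rw [← card_CCode, ← card_univ]
          exact card_filter_le _ _
  have h5 : 0 < T.card ^ q := pow_pos (card_pos.2 hne) q
  have h6 : (1 + 2 * Fintype.card W) ^ t * ((M - 1) ^ q * T.card ^ q) < M ^ q * T.card ^ q := by
    rw [← mul_assoc]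
    exact Nat.mul_lt_mul_of_pos_right hq h5
  omega

/-- A closed narrow CNF set is the closure of few points. -/
theorem exists_clo {t q : ℕ} {J : Finset W} {y : W → Bool} {T : Finset (W → Bool)}
    (hT : IsT t J y T) (hne : T.Nonempty) (hcl : Cls t T)
    (hq : (1 + 2 * Fintype.card W) ^ t * (2 ^ (6 * t) - 1) ^ q < (2 ^ (6 * t)) ^ q) :
    ∃ X : Fin q → (W → Bool), T = clo t J y X := by
  obtain ⟨X, hX, hX2⟩ := exists_hit hne hcl hq
  refine ⟨X, ?_⟩
  ext z
  rw [mem_clo]
  constructor
  · intro hz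
    exact ⟨hT.1 hz, fun k hk => hX2 k ⟨z, mem_fal.2 ⟨hz, hk⟩⟩⟩
  · rintro ⟨hz, h⟩
    by_contra hzT
    obtain ⟨k, hk, hk2⟩ := hT.2 z hz hzT
    obtain ⟨i, hi⟩ := h k hk
    exact hk2 _ (hX i) hi

variable (W) in
/-- The family of all closures of `q` points. -/
noncomputable def FC (t q : ℕ) : Finset (Finset W × Finset (W → Bool)) :=
  univ.image fun p : Finset W × (W → Bool) × (Fin q → (W → Bool)) =>
    (p.1, clo t p.1 p.2.1 p.2.2)

theorem card_FC (t q : ℕ) : (FC W t q).card ≤ 2 ^ (Fintype.card W * (q + 2)) := by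
  refine card_image_le.trans (le_of_eq ?_)
  simp only [card_univ, Fintype.card_prod, Fintype.card_finset, Fintype.card_pi, prod_const,
    Fintype.card_bool, Fintype.card_fin]
  rw [← pow_mul, ← pow_add, ← pow_add]
  congr 1
  ring

theorem FC_agree {t q : ℕ} {p : Finset W × Finset (W → Bool)} (hp : p ∈ FC W t q) :
    ∃ y : W → Bool, ∀ z ∈ p.2, ∀ v, v ∉ p.1 → z v = y v := by
  classical
  obtain ⟨r, -, rfl⟩ := mem_image.1 hp
  exact ⟨r.2.1, fun z hz => mem_cube.1 (mem_clo.1 hz).1⟩

/-- A bound for all closures gives a bound for all narrow CNFs. -/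
theorem narrow_of_FC {t q : ℕ} (ht : 1 ≤ t)
    (hq : (1 + 2 * Fintype.card W) ^ t * (2 ^ (6 * t) - 1) ^ q < (2 ^ (6 * t)) ^ q)
    {h : (W → Bool) → ℝ} (hh : ∀ z, |h z| ≤ 1) {κ : Finset W → ℝ} (hκ : ∀ J, 0 ≤ κ J)
    (hgood : ∀ p ∈ FC W t q, |∑ z ∈ p.2, h z| ≤ κ p.1 ^ 4 * 2 ^ p.1.card)
    (J : Finset W) (y : W → Bool) (I : Finset ℕ) (C : ℕ → Expansion.Cl W)
    (hC : ∀ i ∈ I, (C i).S.card ≤ t) :
    |Expansion.val h C J y I| ≤ κ J * 2 ^ J.card := by
  classical
  set F : Finset (W → Bool) := (cube J y).filter fun z =>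
    ∀ i ∈ I, ¬ ∀ v ∈ (C i).S, z v = (C i).c v with hF
  have hval : Expansion.val h C J y I = ∑ z ∈ F, h z := by
    rw [Expansion.val, hF, sum_filter]
    refine sum_congr rfl fun z _ => ?_
    split_ifs with h1
    · rw [prod_eq_one fun i hi => ?_, mul_one]
      rw [Expansion.ind, if_neg (h1 i hi)]
    · push Not at h1
      obtain ⟨i, hi, h2⟩ := h1
      rw [prod_eq_zero hi, mul_zero]
      rw [Expansion.ind, if_pos h2]
  have hIsT : IsT t J y F := by
    refine ⟨filter_subset _ _, fun z hz hzF => ?_⟩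
    rw [hF, mem_filter] at hzF
    push Not at hzF
    obtain ⟨i, hi, h2⟩ := hzF hz
    obtain ⟨k, hk⟩ := Expansion.exists_code (C i) (hC i hi)
    refine ⟨k, (hk z).2 h2, fun x hx hkx => ?_⟩
    rw [hF, mem_filter] at hx
    exact hx.2 i hi ((hk x).1 hkx)
  rw [hval]
  refine bound_of_closed ht hIsT hh (hκ J) fun T hT hcl => ?_
  rcases T.eq_empty_or_nonempty with rfl | hne
  · simp only [sum_empty, abs_zero]
    have := hκ J
    positivity
  · obtain ⟨X, hX⟩ := exists_clo hT hne hcl hq
    have h1 := hgood (J, T) (by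
      rw [FC, mem_image]
      exact ⟨(J, y, X), mem_univ _, by rw [hX]⟩)
    exact h1

end Vale.Agent.P336.Shear
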