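import Vale.Agent.P336.H887.Seed
import Vale.Agent.P336.H117.Hit

/-!
# P336: the correlation bound for a good seed, without sparsification
-/

set_option linter.unusedSectionVars false

namespace Vale.Agent.P336.Shear

open Finset

open Vale.Agent.P336.Expansion
open Vale.Agent.P336.Moment

noncomputable section

variable {G U : Type} [Fintype G] [DecidableEq G] [Fintype U] [DecidableEq U]

theorem sum_pow_card (X : Type) [Fintype X] [DecidableEq X] (x : ℝ) :
    ∑ P : Finset X, x ^ P.card = (1 + x) ^ Fintype.card X := by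
  have h := Finset.sum_pow_mul_eq_add_pow x 1 (univ : Finset X)
  rw [powerset_univ] at h
  simp only [one_pow, mul_one] at h
  rw [h, card_univ, add_comm]

theorem min_pow_le {x ρ : ℝ} (hx : 0 ≤ x) (h : x * ρ = 1) (p q : ℕ) :
    x ^ (p + q) * ρ ^ max p q ≤ x ^ p + x ^ q := by
  have h0 : ∀ n : ℕ, x ^ n * ρ ^ n = 1 := fun n => by
    rw [← mul_pow, h, one_pow]
  have hp : 0 ≤ x ^ p := by positivity
  have hq : 0 ≤ x ^ q := by positivity
  rcases le_total p q with h1 | h1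
  · rw [max_eq_right h1, pow_add, mul_assoc, h0, mul_one]
    linarith
  · rw [max_eq_left h1, pow_add, mul_comm (x ^ p), mul_assoc, h0, mul_one]
    linarith

/-- **Average over the alive sets**. -/
theorem sum_mx_le' {x ρ : ℝ} (hx : 0 ≤ x) (hρ : 0 ≤ ρ) (h : x * ρ = 1) :
    ∑ J : Finset (G × (U ⊕ U)), x ^ J.card * ρ ^ mx J ≤
      (2 * (2 * (1 + x)) ^ Fintype.card U) ^ Fintype.card G := by
  have h1 : ∀ J : Finset (G × (U ⊕ U)), x ^ J.card * ρ ^ mx J ≤
      ∏ i, (x ^ ((splitE J i).1).card + x ^ ((splitE J i).2).card) := by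
    intro J
    rw [card_eq_sum, mx, ← prod_pow_eq_pow_sum, ← prod_pow_eq_pow_sum, ← prod_mul_distrib]
    exact prod_le_prod (fun _ _ => by positivity) fun i _ => min_pow_le hx h _ _
  refine (sum_le_sum fun J _ => h1 J).trans (le_of_eq ?_)
  rw [splitE.sum_comp fun c : G → Finset U × Finset U =>
    ∏ i, (x ^ ((c i).1).card + x ^ ((c i).2).card)]
  have h2 := Finset.prod_univ_sum (fun _ : G => (univ : Finset (Finset U × Finset U)))
    (fun _ c => (x ^ (c.1).card + x ^ (c.2).card))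
  rw [Fintype.piFinset_univ] at h2
  rw [← h2, prod_const, card_univ]
  congr 1
  rw [Fintype.sum_prod_type]
  simp only [sum_add_distrib, sum_const, sum_pow_card, card_univ, Fintype.card_finset,
    nsmul_eq_mul, ← mul_sum]
  push_cast
  rw [mul_pow]
  ring

theorem abs_hB_le (a : G × U × U → Bool) (z : G × (U ⊕ U) → Bool) : |hB a z| ≤ 1 := by
  rw [Moment.hB_eq]
  split_ifs <;> simp

/-- **Correlation bound for a good seed**. -/
theorem corr_seed {t b k n Q q : ℕ} {ρ : ℝ} (hρ0 : 0 < ρ) (hρ : ρ ^ 4 = 2)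
    (ht : 1 ≤ t) (hb : 0 < b) (hk : 12 * k ≤ b * t) (hn : Even n)
    (hq : (1 + 2 * Fintype.card (G × (U ⊕ U))) ^ t * (2 ^ (6 * t) - 1) ^ q < (2 ^ (6 * t)) ^ q)
    (hcard : Fintype.card (G × (U ⊕ U)) * (q + 2) < n * Q)
    {δ : ℝ} (hδ : 2 * 2 ^ Fintype.card G * ρ ^ (Fintype.card G * n + Q) *
      ((1 + ρ⁻¹) / 2) ^ (Fintype.card G * Fintype.card U) ≤ δ) :
    ∃ a : G × U × U → Bool,
      Corr (fun x : (G × (U ⊕ U)) × Fin b → Bool => hB a (yv Expansion.parity x)) k δ := by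
  obtain ⟨a, ha⟩ := good_seed n Q hn (FC (G × (U ⊕ U)) t q) (fun p hp => FC_agree hp)
    (lt_of_le_of_lt (card_FC t q) (Nat.pow_lt_pow_right (by norm_num) hcard))
  refine ⟨a, ?_⟩
  set κ : Finset (G × (U ⊕ U)) → ℝ :=
    fun J => ρ ^ (mx J + Fintype.card G * n + Q) * ρ⁻¹ ^ J.card with hκ
  have hκ0 : ∀ J, 0 ≤ κ J := fun J => by rw [hκ]; positivity
  have hκ4 : ∀ J, κ J ^ 4 * 2 ^ J.card = 2 ^ (mx J + Fintype.card G * n + Q) := by
    intro J
    rw [hκ]
    simp only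
    rw [mul_pow, ← pow_mul, ← pow_mul, mul_comm _ 4, mul_comm _ 4, pow_mul, pow_mul, hρ,
      inv_pow, hρ, mul_assoc, ← mul_pow]
    norm_num
  have hnar := narrow_of_FC (W := G × (U ⊕ U)) ht hq (abs_hB_le a) hκ0 (fun p hp => by
    rw [hκ4]; exact ha p hp)
  intro M C hC
  have h1 := correlation hb ht hk C hC Expansion.parity Expansion.parity_flip (hB a)
    (fun J => κ J * 2 ^ J.card) (fun J y₀ I C' hI => hnar J y₀ I C' hI)
  refine h1.trans ?_
  have hcb : Fintype.card ((G × (U ⊕ U)) × Fin b) = Fintype.card (G × (U ⊕ U)) * b := by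
    rw [Fintype.card_prod (G × (U ⊕ U)), Fintype.card_fin]
  rw [hcb]
  have h2 : ∑ J : Finset (G × (U ⊕ U)), (1 / 2 : ℝ) ^ J.card * (κ J * 2 ^ J.card) =
      ρ ^ (Fintype.card G * n + Q) * ∑ J : Finset (G × (U ⊕ U)), ρ⁻¹ ^ J.card * ρ ^ mx J := by
    rw [mul_sum]
    refine sum_congr rfl fun J _ => ?_
    have h3 : (1 / 2 : ℝ) ^ J.card * 2 ^ J.card = 1 := by rw [← mul_pow]; norm_num
    rw [hκ]
    simp only
    rw [add_assoc, pow_add ρ (mx J)]
    calc (1 / 2 : ℝ) ^ J.card * (ρ ^ mx J * ρ ^ (Fintype.card G * n + Q) * ρ⁻¹ ^ J.card *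
          2 ^ J.card) = ((1 / 2 : ℝ) ^ J.card * 2 ^ J.card) *
          (ρ ^ (Fintype.card G * n + Q) * (ρ⁻¹ ^ J.card * ρ ^ mx J)) := by ring
      _ = _ := by rw [h3, one_mul]
  have h3 := sum_mx_le' (G := G) (U := U) (x := ρ⁻¹) (ρ := ρ) (by positivity) hρ0.le
    (inv_mul_cancel₀ hρ0.ne')
  have h4 : (2 : ℝ) ^ Fintype.card (G × (U ⊕ U)) =
      4 ^ (Fintype.card G * Fintype.card U) := by
    rw [Fintype.card_prod, Fintype.card_sum, show (4 : ℝ) = 2 ^ 2 by norm_num, ← pow_mul]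
    congr 1
    ring
  have h5 : 2 / 2 ^ Fintype.card (G × (U ⊕ U)) * ∑ J : Finset (G × (U ⊕ U)),
      (1 / 2 : ℝ) ^ J.card * (κ J * 2 ^ J.card) ≤ δ := by
    refine le_trans ?_ hδ
    rw [h2, h4]
    calc 2 / 4 ^ (Fintype.card G * Fintype.card U) * (ρ ^ (Fintype.card G * n + Q) *
          ∑ J : Finset (G × (U ⊕ U)), ρ⁻¹ ^ J.card * ρ ^ mx J)
        ≤ 2 / 4 ^ (Fintype.card G * Fintype.card U) * (ρ ^ (Fintype.card G * n + Q) *
          (2 * (2 * (1 + ρ⁻¹)) ^ Fintype.card U) ^ Fintype.card G) := by gcongr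
      _ = 2 * 2 ^ Fintype.card G * ρ ^ (Fintype.card G * n + Q) *
          ((2 * (1 + ρ⁻¹)) ^ (Fintype.card G * Fintype.card U) /
            4 ^ (Fintype.card G * Fintype.card U)) := by
          rw [mul_pow, ← pow_mul, mul_comm (Fintype.card U)]
          ring
      _ = _ := by
          rw [← div_pow]
          congr 2
          ring
  calc 2 * 2 ^ (Fintype.card (G × (U ⊕ U)) * b) / 2 ^ Fintype.card (G × (U ⊕ U)) *
        ∑ J : Finset (G × (U ⊕ U)), (1 / 2 : ℝ) ^ J.card * (κ J * 2 ^ J.card)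
      = (2 / 2 ^ Fintype.card (G × (U ⊕ U)) * ∑ J : Finset (G × (U ⊕ U)),
          (1 / 2 : ℝ) ^ J.card * (κ J * 2 ^ J.card)) *
          2 ^ (Fintype.card (G × (U ⊕ U)) * b) := by ring
    _ ≤ δ * 2 ^ (Fintype.card (G × (U ⊕ U)) * b) := by gcongr

end

end Vale.Agent.P336.Shear
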