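import Vale.Agent.P336.H117.Numerics
import Vale.Agent.P336.H117.Seed
import Vale.Agent.P336.H792.Final

/-!
# P336: the lower bound with exponent `√(n log n)`
-/

namespace Vale.Agent.P336.Shear

open Vale.Agent.P336.Num2

/-- The lower bound for the slices of the language and of its complement. -/
theorem S3_lang_ge {n : ℕ} (hn : 2 ^ 2 ^ 11 ≤ Nat.sqrt n) :
    2 ^ nu (Nat.sqrt n) ≤ S3 (slice lang n) ∧ 2 ^ nu (Nat.sqrt n) ≤ S3 fun x => !slice lang n x := by
  set S := Nat.sqrt n with hS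
  have hB : Basic S := basic hn
  have hcard : Fintype.card (Fin (gg S) × (Fin (mm S) ⊕ Fin (mm S))) = NN S := by
    rw [Fintype.card_prod, Fintype.card_sum, Fintype.card_fin, Fintype.card_fin, NN]
    ring
  have hτ := hB.hτ
  have ht : 1 ≤ gg S := Nat.mul_pos (by omega) (by omega)
  have hb : 0 < bb S := Nat.div_pos (by have := tau_le hB; omega) (by omega)
  have hk : 12 * kk S ≤ bb S * gg S := Nat.mul_div_le _ _
  have hw := width hB
  obtain ⟨ρ, hρ1, hρ4, hρ9⟩ := rho_exists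
  obtain ⟨a, ha⟩ := corr_seed (G := Fin (gg S)) (U := Fin (mm S)) (t := gg S)
    (b := bb S) (k := kk S) (n := nm S) (Q := QQ S) (q := qq S) (ρ := ρ) (by linarith) hρ4
    ht hb hk (even_two_mul _) (by rw [hcard]; exact hit hB) (by rw [hcard]; exact union hB)
    (δ := 1 / 2 ^ (nu S + 3))
    (by rw [Fintype.card_fin, Fintype.card_fin]; exact delta_le hB hρ1 hρ4 hρ9)
  have hlen : codeLen (gg S) (mm S) (bb S) ≤ n := (space hB).trans (Nat.sqrt_le n)
  have hδ : (1 : ℝ) / 2 ^ (nu S + 3) ≤ 1 / 2 := by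
    apply one_div_le_one_div_of_le (by norm_num)
    calc (2 : ℝ) = 2 ^ 1 := by norm_num
      _ ≤ 2 ^ (nu S + 3) := pow_le_pow_right₀ (by norm_num) (by omega)
  obtain ⟨h1, h2⟩ := S3_lang_of_hB a hlen hδ ha
  exact ⟨le_of_ineq hw h1, le_of_ineq hw h2⟩

/-- The growth of the exponent. -/
theorem growth {n : ℕ} (hn : 2 ^ 2 ^ 11 ≤ Nat.sqrt n) :
    1 / 16384 * Real.sqrt (n * Real.log n) ≤ nu (Nat.sqrt n) := by
  set S := Nat.sqrt n with hS
  have hB : Basic S := basic hn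
  have hτ := hB.hτ
  have hn1 : n < (S + 1) * (S + 1) := Nat.lt_succ_sqrt n
  have hS1 : 256 ≤ S := by
    have := tau_le hB
    omega
  set L := Nat.size S with hL
  set τ := tau S with hτd
  -- the size
  have hLτ : L ≤ 512 * (τ * τ) := by
    have h1 : L / 128 < (τ + 1) * (τ + 1) := Nat.lt_succ_sqrt (L / 128)
    have h2 : (τ + 1) * (τ + 1) ≤ 4 * (τ * τ) := by nlinarith
    omega
  have hn0 : 0 < n := by
    rcases Nat.eq_zero_or_pos n with h0 | h0
    · rw [h0] at hS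
      simp at hS
      omega
    · exact h0
  have hn2 : n ≤ 4 * (S * S) := by nlinarith
  have hlog : Real.log n ≤ 2 * L := by
    have h1 : n ≤ 2 ^ (2 * L) := by
      have h2 : S + 1 ≤ 2 ^ L := hB.hSL
      calc n ≤ (S + 1) * (S + 1) := hn1.le
        _ ≤ 2 ^ L * 2 ^ L := Nat.mul_le_mul h2 h2
        _ = 2 ^ (2 * L) := by rw [two_mul, pow_add]
    have h2 : Real.log n ≤ Real.log ((2 : ℝ) ^ (2 * L)) := by
      apply Real.log_le_log (by exact_mod_cast hn0)
      exact_mod_cast h1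
    rw [Real.log_pow] at h2
    have h3 : Real.log 2 ≤ 1 := by
      have := Real.log_two_lt_d9; linarith
    have h4 : (0 : ℝ) ≤ ((2 * L : ℕ) : ℝ) := Nat.cast_nonneg _
    calc Real.log n ≤ ((2 * L : ℕ) : ℝ) * Real.log 2 := h2
      _ ≤ ((2 * L : ℕ) : ℝ) * 1 := mul_le_mul_of_nonneg_left h3 h4
      _ = 2 * L := by push_cast; ring
  have hlog0 : 0 ≤ Real.log n := Real.log_natCast_nonneg n
  have hsq : Real.sqrt (n * Real.log n) ≤ 64 * (S * τ) := by
    rw [Real.sqrt_le_left (by positivity)]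
    have h1 : (n : ℝ) ≤ 4 * (S * S) := by exact_mod_cast hn2
    have h2 : (L : ℝ) ≤ 512 * (τ * τ) := by exact_mod_cast hLτ
    calc (n : ℝ) * Real.log n ≤ (4 * (S * S)) * (2 * L) :=
          mul_le_mul h1 hlog hlog0 (by positivity)
      _ ≤ (4 * (S * S)) * (2 * (512 * (τ * τ))) := by gcongr
      _ = (64 * ((S : ℝ) * τ)) ^ 2 := by ring
  have hnu : ((S : ℝ) * τ) ≤ 256 * nu S := by
    have h1 : S ≤ 256 * (S / 128) := by omega
    have h2 : S * τ ≤ 256 * nu S := by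
      unfold nu
      calc S * τ ≤ (256 * (S / 128)) * τ := Nat.mul_le_mul_right _ h1
        _ = 256 * (S / 128 * tau S) := by rw [hτd]; ring
    exact_mod_cast h2
  linarith

/-- **Main theorem**. -/
theorem main : ∃ L : Set (List Bool), InP L ∧ ∃ c : ℝ, 0 < c ∧ ∀ᶠ n : ℕ in Filter.atTop,
    (2 : ℝ) ^ (c * Real.sqrt (n * Real.log n)) ≤ S3 (slice L n) ∧
    (2 : ℝ) ^ (c * Real.sqrt (n * Real.log n)) ≤ S3 (fun x => !slice L n x) := by
  refine ⟨lang, inP_lang, 1 / 16384, by norm_num, ?_⟩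
  filter_upwards [Filter.eventually_ge_atTop ((2 ^ 2 ^ 11) * (2 ^ 2 ^ 11))] with n h2
  have hS : 2 ^ 2 ^ 11 ≤ Nat.sqrt n := Nat.le_sqrt.2 h2
  obtain ⟨h3, h4⟩ := S3_lang_ge hS
  have h5 : (2 : ℝ) ^ (1 / 16384 * Real.sqrt (n * Real.log n)) ≤ 2 ^ nu (Nat.sqrt n) := by
    rw [← Real.rpow_natCast]
    exact Real.rpow_le_rpow_of_exponent_le (by norm_num) (growth hS)
  exact ⟨h5.trans (by exact_mod_cast h3), h5.trans (by exact_mod_cast h4)⟩

end Vale.Agent.P336.Shear
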