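import Vale.Agent.P336.H792.Numerics

/-!
# P336: the parameters for narrow clauses of logarithmic width
-/

namespace Vale.Agent.P336.Num2

/-- the slowly growing parameter -/
def tau (S : ℕ) : ℕ := Nat.sqrt (Nat.size S / 128)

/-- number of groups, and width of the narrow clauses -/
def gg (S : ℕ) : ℕ := tau S * tau S

/-- half the size of the groups -/
def mm (S : ℕ) : ℕ := S / (8 * tau S)

/-- size of the blocks -/
def bb (S : ℕ) : ℕ := S / tau S

/-- number of blocks -/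
def NN (S : ℕ) : ℕ := 2 * (gg S * mm S)

/-- the exponent of the lower bound -/
def nu (S : ℕ) : ℕ := S / 128 * tau S

/-- width of the clauses -/
def kk (S : ℕ) : ℕ := bb S * gg S / 12

/-- the moment -/
def nm (S : ℕ) : ℕ := 2 * (S / (256 * tau S))

/-- exponent of the union bound divided by the moment -/
def QQ (S : ℕ) : ℕ := tau S * (S / 256)

/-- the number of blocks of sample points -/
def rr (S : ℕ) : ℕ := 2 * Nat.size S * gg S + 1

/-- the number of sample points -/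
def qq (S : ℕ) : ℕ := 2 ^ (6 * gg S) * rr S

/-- Basic facts about the parameters. -/
structure Basic (S : ℕ) : Prop where
  hL : 2048 ≤ Nat.size S
  hpoly : 2 ^ 40 * Nat.size S ^ 4 * 2 ^ (Nat.size S / 4) ≤ S
  hSL : S < 2 ^ Nat.size S
  hτ : 4 ≤ tau S
  hτL : 128 * (tau S * tau S) ≤ Nat.size S

theorem basic {S : ℕ} (hS : 2 ^ 2 ^ 11 ≤ S) : Basic S := by
  have hlt : 2 ^ 11 < Nat.size S := Nat.lt_size.2 hS
  have hμ : 12 ≤ Nat.size (Nat.size S) := Nat.lt_size.2 hlt.le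
  have hL0 : 2 ^ (Nat.size (Nat.size S) - 1) ≤ Nat.size S := Num.pow_size_le (by omega)
  have hL1 : 128 * Nat.size (Nat.size S) ≤ Nat.size S := (Num.pow_lin _ hμ).trans hL0
  have hS1 : 1 ≤ S := le_trans Nat.one_le_two_pow hS
  refine ⟨by omega, Num.poly_le' hμ hL1 (Nat.lt_size_self _) (Num.pow_size_le hS1),
    Nat.lt_size_self _, ?_, ?_⟩
  · unfold tau
    rw [Nat.le_sqrt, Nat.le_div_iff_mul_le (by omega)]
    omega
  · have h1 : tau S * tau S ≤ Nat.size S / 128 := Nat.sqrt_le _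
    omega

/-- `τ² ≤ L`. -/
theorem tt_le {S : ℕ} (h : Basic S) : tau S * tau S ≤ Nat.size S := by
  have h1 := h.hτL
  omega

theorem L_le {S : ℕ} (h : Basic S) : 2 ^ 40 * Nat.size S ≤ S := by
  have h1 := h.hpoly
  have h3 : Nat.size S ≤ Nat.size S ^ 4 := Nat.le_self_pow (by norm_num) _
  have h4 : 1 ≤ 2 ^ (Nat.size S / 4) := Nat.one_le_two_pow
  calc 2 ^ 40 * Nat.size S = 2 ^ 40 * Nat.size S * 1 := by ring
    _ ≤ 2 ^ 40 * Nat.size S ^ 4 * 2 ^ (Nat.size S / 4) := by gcongr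
    _ ≤ S := h1

theorem tau_le {S : ℕ} (h : Basic S) : 2 ^ 40 * tau S ≤ S := by
  have h1 := L_le h
  have h2 := tt_le h
  have h3 := h.hτ
  nlinarith

/-- space -/
theorem space {S : ℕ} (h : Basic S) :
    gg S * (2 * (mm S * (2 * bb S + 2) + 2) + (mm S * mm S * 4 + 2)) ≤ S * S := by
  have h1 := tau_le h
  have h2 : 1 ≤ tau S := by have := h.hτ; omega
  unfold gg
  have h3 : 8 * (tau S * mm S) ≤ S := by
    have := Nat.mul_div_le S (8 * tau S)
    unfold mm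
    linarith
  have h4 : tau S * bb S ≤ S := Nat.mul_div_le S (tau S)
  generalize tau S = τ at *
  generalize mm S = m at *
  generalize bb S = b at *
  have e : τ * τ * (2 * (m * (2 * b + 2) + 2) + (m * m * 4 + 2)) =
      4 * ((τ * m) * (τ * b)) + 4 * (τ * (τ * m)) + 4 * ((τ * m) * (τ * m)) + 6 * (τ * τ) := by
    ring
  rw [e]
  have h5 : 8 * ((τ * m) * (τ * b)) ≤ S * S := by
    calc 8 * ((τ * m) * (τ * b)) = (8 * (τ * m)) * (τ * b) := by ring
      _ ≤ S * S := Nat.mul_le_mul h3 h4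
  have h6 : 64 * ((τ * m) * (τ * m)) ≤ S * S := by
    calc 64 * ((τ * m) * (τ * m)) = (8 * (τ * m)) * (8 * (τ * m)) := by ring
      _ ≤ S * S := Nat.mul_le_mul h3 h3
  have h7 : 64 * (τ * (τ * m)) ≤ S * S := by
    calc 64 * (τ * (τ * m)) = (8 * τ) * (8 * (τ * m)) := by ring
      _ ≤ S * S := Nat.mul_le_mul (by omega) h3
  have h8 : 64 * (τ * τ) ≤ S * S := by
    calc 64 * (τ * τ) = (8 * τ) * (8 * τ) := by ring
      _ ≤ S * S := Nat.mul_le_mul (by omega) (by omega)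
  omega

/-- width -/
theorem width {S : ℕ} (h : Basic S) : 2 * nu S + 3 ≤ kk S := by
  have h1 := tau_le h
  have h2 : 1 ≤ tau S := by have := h.hτ; omega
  unfold nu kk gg bb
  rw [Nat.le_div_iff_mul_le (by norm_num)]
  have h3 : S < tau S * (S / tau S) + tau S := by
    have := Nat.lt_mul_div_succ S h2
    simpa [mul_add] using this
  have h4 : 128 * (S / 128) ≤ S := Nat.mul_div_le S 128
  generalize tau S = τ at *
  generalize S / τ = b at *
  generalize S / 128 = c at *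
  have h5 : 2 * (τ * b) ≥ S := by omega
  have h6 : 24 * c + 36 ≤ b * τ := by
    have : b * τ = τ * b := mul_comm _ _
    omega
  calc (2 * (c * τ) + 3) * 12 = 24 * c * τ + 36 := by ring
    _ ≤ 24 * c * τ + 36 * τ := by omega
    _ = (24 * c + 36) * τ := by ring
    _ ≤ (b * τ) * τ := Nat.mul_le_mul_right _ h6
    _ = b * (τ * τ) := by ring

theorem mm_le {S : ℕ} : 8 * (tau S * mm S) ≤ S := by
  have := Nat.mul_div_le S (8 * tau S)
  unfold mm
  linarith

theorem NN_le (S : ℕ) : 4 * NN S ≤ tau S * S := by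
  have h3 := mm_le (S := S)
  unfold NN gg
  calc 4 * (2 * (tau S * tau S * mm S)) = tau S * (8 * (tau S * mm S)) := by ring
    _ ≤ tau S * S := Nat.mul_le_mul_left _ h3

theorem NN_lt {S : ℕ} (h : Basic S) : 1 + 2 * NN S ≤ 2 ^ (2 * Nat.size S) := by
  have h1 := NN_le S
  have h2 := tau_le h
  have h3 := h.hSL
  have h4 := h.hτ
  have h5 : 4 * NN S ≤ S * S := h1.trans (Nat.mul_le_mul_right _ (by omega))
  have h6 : S * S ≤ 2 ^ Nat.size S * 2 ^ Nat.size S := Nat.mul_le_mul h3.le h3.le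
  have h7 : 2 ≤ S := by omega
  have h8 : 2 * 2 ≤ S * S := Nat.mul_le_mul h7 h7
  calc 1 + 2 * NN S ≤ S * S := by omega
    _ ≤ 2 ^ Nat.size S * 2 ^ Nat.size S := h6
    _ = 2 ^ (2 * Nat.size S) := by rw [two_mul, pow_add]

/-- the moment times its exponent -/
theorem nmQQ_ge {S : ℕ} (h : Basic S) : 2 * (S * S) ≤ 2 ^ 18 * (nm S * QQ S) := by
  have h1 := tau_le h
  have h2 : 1 ≤ tau S := by have := h.hτ; omega
  have h3 : S ≤ 512 * (tau S * (S / (256 * tau S))) := by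
    have := Nat.lt_mul_div_succ S (b := 256 * tau S) (by omega)
    rw [mul_add, mul_one, mul_assoc] at this
    omega
  have h4 : S ≤ 512 * (S / 256) := by omega
  unfold nm QQ
  calc 2 * (S * S) ≤ 2 * ((512 * (tau S * (S / (256 * tau S)))) * (512 * (S / 256))) := by
        gcongr
    _ = 2 ^ 18 * (2 * (S / (256 * tau S)) * (tau S * (S / 256))) := by ring

/-- union bound -/
theorem union {S : ℕ} (h : Basic S) : NN S * (qq S + 2) < nm S * QQ S := by
  have hp := h.hpoly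
  have hN4 := NN_le S
  have htt : gg S ≤ Nat.size S := tt_le h
  have hq := nmQQ_ge h
  have hτL : tau S ≤ Nat.size S := (Nat.le_mul_of_pos_left _ (by have := h.hτ; omega)).trans
    (tt_le h)
  have hL := h.hL
  have h128 : 128 * gg S ≤ Nat.size S := h.hτL
  have hS0 : 0 < S := by
    have := tau_le h
    have := h.hτ
    omega
  have hpow : 2 ^ (6 * gg S) ≤ 2 ^ (Nat.size S / 4) :=
    Nat.pow_le_pow_right (by norm_num) (by omega)
  have hE : 1 ≤ 2 ^ (Nat.size S / 4) := Nat.one_le_two_pow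
  unfold qq rr
  generalize NN S = N at *
  generalize gg S = t at *
  generalize tau S = τ at *
  generalize Nat.size S = L at *
  generalize nm S * QQ S = q at *
  generalize 2 ^ (L / 4) = E at *
  generalize 2 ^ (6 * t) = M at *
  have h1 : M * (2 * L * t + 1) + 2 ≤ 3 * (L ^ 2 * E) := by
    have h2 : M * (2 * L * t + 1) ≤ E * (2 * L * L + 1) := by
      apply Nat.mul_le_mul hpow
      have : L * t ≤ L * L := Nat.mul_le_mul_left _ htt
      nlinarith
    have h3 : 3 ≤ L ^ 2 := by nlinarith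
    have h4 : 3 * E ≤ L ^ 2 * E := Nat.mul_le_mul_right _ h3
    have h5 : E * (2 * L * L + 1) = 2 * (L ^ 2 * E) + E := by ring
    omega
  have h2 : 4 * (N * (M * (2 * L * t + 1) + 2)) ≤ 3 * (S * (L ^ 4 * E)) := by
    calc 4 * (N * (M * (2 * L * t + 1) + 2)) = (4 * N) * (M * (2 * L * t + 1) + 2) := by ring
      _ ≤ (τ * S) * (3 * (L ^ 2 * E)) := Nat.mul_le_mul hN4 h1
      _ ≤ (L * S) * (3 * (L ^ 2 * E)) := by gcongr
      _ = 3 * (S * (L ^ 3 * E)) := by ring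
      _ ≤ 3 * (S * (L ^ 4 * E)) := by
          have h3 : L ^ 3 ≤ L ^ 4 := Nat.pow_le_pow_right (by omega) (by norm_num)
          gcongr
  have h3 : 2 ^ 40 * (S * (L ^ 4 * E)) ≤ S * S := by
    calc 2 ^ 40 * (S * (L ^ 4 * E)) = S * (2 ^ 40 * L ^ 4 * E) := by ring
      _ ≤ S * S := Nat.mul_le_mul_left _ hp
  have h4 : 0 < S * S := Nat.mul_pos hS0 hS0
  generalize N * (M * (2 * L * t + 1) + 2) = A at *
  generalize S * (L ^ 4 * E) = B at *
  generalize S * S = D at *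
  omega

/-- The elementary inequality behind the number of sample points. -/
theorem pow_mul_le (m n : ℕ) : m ^ n * (m + n) ≤ m * (m + 1) ^ n := by
  induction n with
  | zero => simp
  | succ n ih =>
    calc m ^ (n + 1) * (m + (n + 1)) = m ^ n * (m * (m + (n + 1))) := by ring
      _ ≤ m ^ n * ((m + n) * (m + 1)) := by
          apply Nat.mul_le_mul_left
          nlinarith
      _ = m ^ n * (m + n) * (m + 1) := by ring
      _ ≤ m * (m + 1) ^ n * (m + 1) := Nat.mul_le_mul_right _ ih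
      _ = m * (m + 1) ^ (n + 1) := by ring

theorem two_mul_pow_le {M : ℕ} (hM : 2 ≤ M) : 2 * (M - 1) ^ M ≤ M ^ M := by
  obtain ⟨m, rfl⟩ : ∃ m, M = m + 1 := ⟨M - 1, by omega⟩
  rw [Nat.add_sub_cancel]
  have h1 := pow_mul_le m (m + 1)
  have h2 : 0 < m := by omega
  have h3 : m * (2 * m ^ (m + 1)) ≤ m * (m + 1) ^ (m + 1) := by
    calc m * (2 * m ^ (m + 1)) = m ^ (m + 1) * (m + m) := by ring
      _ ≤ m ^ (m + 1) * (m + (m + 1)) := Nat.mul_le_mul_left _ (by omega)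
      _ ≤ _ := h1
  exact Nat.le_of_mul_le_mul_left h3 h2

theorem hit_ineq {A M r : ℕ} (hM : 2 ≤ M) (hA : A < 2 ^ r) :
    A * (M - 1) ^ (M * r) < M ^ (M * r) := by
  have h1 : 0 < (M - 1) ^ (M * r) := pow_pos (by omega) _
  calc A * (M - 1) ^ (M * r) < 2 ^ r * (M - 1) ^ (M * r) := Nat.mul_lt_mul_of_pos_right hA h1
    _ = (2 * (M - 1) ^ M) ^ r := by rw [mul_pow, ← pow_mul]
    _ ≤ (M ^ M) ^ r := Nat.pow_le_pow_left (two_mul_pow_le hM) r
    _ = M ^ (M * r) := by rw [← pow_mul]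

/-- the number of sample points is large enough -/
theorem hit {S : ℕ} (h : Basic S) :
    (1 + 2 * NN S) ^ gg S * (2 ^ (6 * gg S) - 1) ^ qq S < (2 ^ (6 * gg S)) ^ qq S := by
  have hN := NN_lt h
  have hg : 1 ≤ gg S := Nat.mul_pos (by have := h.hτ; omega) (by have := h.hτ; omega)
  refine hit_ineq ?_ ?_
  · calc 2 = 2 ^ 1 := rfl
      _ ≤ 2 ^ (6 * gg S) := Nat.pow_le_pow_right (by norm_num) (by omega)
  · calc (1 + 2 * NN S) ^ gg S ≤ (2 ^ (2 * Nat.size S)) ^ gg S := Nat.pow_le_pow_left hN _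
      _ = 2 ^ (2 * Nat.size S * gg S) := by rw [← pow_mul]
      _ < 2 ^ rr S := Nat.pow_lt_pow_right (by norm_num) (by unfold rr; omega)

/-- the exponent of the correlation bound -/
theorem expo {S : ℕ} (h : Basic S) :
    1 + gg S + ((gg S * nm S + QQ S) / 4 + 1) + (nu S + 3) ≤ gg S * mm S / 9 := by
  have h1 := tau_le h
  have h2 : 1 ≤ tau S := by have := h.hτ; omega
  unfold nm QQ nu mm gg
  have h5 : S < 8 * (tau S * (S / (8 * tau S))) + 8 * tau S := by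
    have := Nat.lt_mul_div_succ S (b := 8 * tau S) (by omega)
    rw [mul_add, mul_one, mul_assoc] at this
    exact this
  have h6 : 256 * (tau S * (S / (256 * tau S))) ≤ S := by
    have := Nat.mul_div_le S (256 * tau S)
    rw [mul_assoc] at this
    exact this
  have h7 : 256 * (S / 256) ≤ S := Nat.mul_div_le S 256
  have h8 : 128 * (S / 128) ≤ S := Nat.mul_div_le S 128
  generalize tau S = τ at *
  generalize S / (8 * τ) = m at *
  generalize S / (256 * τ) = a at *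
  generalize S / 256 = c at *
  generalize S / 128 = d at *
  have e1 : 256 * (τ * τ * (2 * a)) ≤ 2 * (τ * S) := by
    calc 256 * (τ * τ * (2 * a)) = 2 * (τ * (256 * (τ * a))) := by ring
      _ ≤ 2 * (τ * S) := by gcongr
  have e2 : 256 * (τ * c) ≤ τ * S := by
    calc 256 * (τ * c) = τ * (256 * c) := by ring
      _ ≤ τ * S := by gcongr
  have e3 : 128 * (d * τ) ≤ τ * S := by
    calc 128 * (d * τ) = τ * (128 * d) := by ring
      _ ≤ τ * S := by gcongr
  have e4 : τ * S ≤ 8 * (τ * τ * m) + 8 * (τ * τ) := by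
    calc τ * S ≤ τ * (8 * (τ * m) + 8 * τ) := by gcongr
      _ = 8 * (τ * τ * m) + 8 * (τ * τ) := by ring
  have e5 : 2 ^ 40 * (τ * τ) ≤ τ * S := by
    calc 2 ^ 40 * (τ * τ) = τ * (2 ^ 40 * τ) := by ring
      _ ≤ τ * S := by gcongr
  have e6 : 1 ≤ τ * τ := Nat.mul_pos h2 h2
  generalize τ * τ * (2 * a) = x1 at *
  generalize τ * c = x2 at *
  generalize d * τ = x3 at *
  generalize τ * τ * m = x4 at *
  generalize τ * τ = x5 at *
  generalize τ * S = x6 at *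
  omega

theorem rho_exists : ∃ ρ : ℝ, 1 ≤ ρ ∧ ρ ^ 4 = 2 ∧ ((1 + ρ⁻¹) / 2) ^ 9 ≤ 1 / 2 := by
  set ρ : ℝ := Real.sqrt (Real.sqrt 2) with hρ
  have h4 : ρ ^ 4 = 2 := by
    calc ρ ^ 4 = (ρ ^ 2) ^ 2 := by ring
      _ = 2 := by
        rw [hρ, Real.sq_sqrt (Real.sqrt_nonneg _), Real.sq_sqrt (by norm_num)]
  have h0 : 0 ≤ ρ := Real.sqrt_nonneg _
  have h1 : 1 ≤ ρ := by
    by_contra h
    push Not at h
    have : ρ ^ 4 ≤ 1 := pow_le_one₀ h0 h.le
    linarith
  refine ⟨ρ, h1, h4, ?_⟩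
  have h5 : ρ⁻¹ ≤ 0.841 := by
    have h6 : ρ⁻¹ ^ 4 ≤ (0.841 : ℝ) ^ 4 := by
      rw [inv_pow, h4]
      norm_num
    exact le_of_pow_le_pow_left₀ (by norm_num) (by norm_num) h6
  have h6 : (0 : ℝ) ≤ ρ⁻¹ := inv_nonneg.2 h0
  calc ((1 + ρ⁻¹) / 2) ^ 9 ≤ ((1 + 0.841) / 2) ^ 9 := by gcongr
    _ ≤ 1 / 2 := by norm_num

/-- the correlation bound -/
theorem delta_le {S : ℕ} (h : Basic S) {ρ : ℝ} (h1 : 1 ≤ ρ) (h4 : ρ ^ 4 = 2)
    (h9 : ((1 + ρ⁻¹) / 2) ^ 9 ≤ 1 / 2) :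
    2 * 2 ^ gg S * ρ ^ (gg S * nm S + QQ S) * ((1 + ρ⁻¹) / 2) ^ (gg S * mm S) ≤
      1 / 2 ^ (nu S + 3) := by
  have he := expo h
  generalize gg S * nm S + QQ S = x at *
  generalize gg S * mm S = y at *
  generalize gg S = g at *
  generalize nu S + 3 = z at *
  have h0 : (0 : ℝ) ≤ ρ⁻¹ := by positivity
  have hle1 : ρ⁻¹ ≤ 1 := inv_le_one_of_one_le₀ h1
  have hc0 : 0 ≤ (1 + ρ⁻¹) / 2 := by positivity
  have hc1 : (1 + ρ⁻¹) / 2 ≤ 1 := by linarith
  have e1 : ((1 + ρ⁻¹) / 2) ^ y ≤ (1 / 2) ^ (y / 9) := by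
    calc ((1 + ρ⁻¹) / 2) ^ y ≤ ((1 + ρ⁻¹) / 2) ^ (9 * (y / 9)) :=
          pow_le_pow_of_le_one hc0 hc1 (Nat.mul_div_le y 9)
      _ = (((1 + ρ⁻¹) / 2) ^ 9) ^ (y / 9) := by rw [pow_mul]
      _ ≤ (1 / 2) ^ (y / 9) := pow_le_pow_left₀ (by positivity) h9 _
  have e2 : ρ ^ x ≤ 2 ^ (x / 4 + 1) := by
    calc ρ ^ x ≤ ρ ^ (4 * (x / 4 + 1)) := pow_le_pow_right₀ h1 (by omega)
      _ = 2 ^ (x / 4 + 1) := by rw [pow_mul, h4]
  have e3 : ((1 : ℝ) / 2) ^ (y / 9) * 2 ^ (y / 9) = 1 := by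
    rw [← mul_pow]; norm_num
  rw [le_div_iff₀ (by positivity)]
  calc 2 * 2 ^ g * ρ ^ x * ((1 + ρ⁻¹) / 2) ^ y * 2 ^ z
      ≤ 2 * 2 ^ g * 2 ^ (x / 4 + 1) * (1 / 2) ^ (y / 9) * 2 ^ z := by gcongr
    _ = (1 / 2) ^ (y / 9) * 2 ^ (1 + g + (x / 4 + 1) + z) := by
        rw [pow_add 2 (1 + g + (x / 4 + 1)), pow_add 2 (1 + g), pow_add 2 1]; ring
    _ ≤ (1 / 2) ^ (y / 9) * 2 ^ (y / 9) := by
        gcongr
        norm_num
    _ = 1 := e3

end Vale.Agent.P336.Num2
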