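import Vale.Agent.P336.H117.Shear
import Vale.Agent.P336.H567.Narrow

/-!
# P336: every narrow CNF is a disjoint union of closed ones, at no cost for the positions

A set `F` of points of a subcube is a `t`-CNF set if it is defined by clauses of width at most `t`.
It is closed if every clause of width at most `t` which is false somewhere on `F` is false on more
than a fraction `2 ^ (-6 t)` of `F`.
-/

set_option linter.unusedSectionVars false

namespace Vale.Agent.P336.Shear

open Finset

open Vale.Agent.P336.Expansion (cube mem_cube CCode)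

variable {W : Type} [Fintype W] [DecidableEq W]

/-- `F` is defined in the subcube by clauses of width at most `t`. -/
def IsT (t : ℕ) (J : Finset W) (y : W → Bool) (F : Finset (W → Bool)) : Prop :=
  F ⊆ cube J y ∧ ∀ z ∈ cube J y, z ∉ F → ∃ k : CCode W t, k.IsFalse z ∧ ∀ x ∈ F, ¬ k.IsFalse x

open Classical in
/-- The points of `F` where the clause is false. -/
noncomputable def fal {t : ℕ} (k : CCode W t) (F : Finset (W → Bool)) : Finset (W → Bool) :=
  F.filter fun x => k.IsFalse x

open Classical in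
/-- The points of `F` where the clause is true. -/
noncomputable def tru {t : ℕ} (k : CCode W t) (F : Finset (W → Bool)) : Finset (W → Bool) :=
  F.filter fun x => ¬ k.IsFalse x

theorem mem_fal {t : ℕ} {k : CCode W t} {F : Finset (W → Bool)} {x : W → Bool} :
    x ∈ fal k F ↔ x ∈ F ∧ k.IsFalse x := by simp [fal]

theorem mem_tru {t : ℕ} {k : CCode W t} {F : Finset (W → Bool)} {x : W → Bool} :
    x ∈ tru k F ↔ x ∈ F ∧ ¬ k.IsFalse x := by simp [tru]

theorem card_tru_add_fal {t : ℕ} (k : CCode W t) (F : Finset (W → Bool)) :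
    (tru k F).card + (fal k F).card = F.card := by
  classical
  have := card_filter_add_card_filter_not (s := F) (fun x => ¬ k.IsFalse x)
  simp only [not_not] at this
  unfold tru fal
  convert this

theorem sum_tru_add_fal {t : ℕ} (k : CCode W t) (F : Finset (W → Bool))
    (h : (W → Bool) → ℝ) : ∑ z ∈ tru k F, h z + ∑ z ∈ fal k F, h z = ∑ z ∈ F, h z := by
  classical
  have := sum_filter_add_sum_filter_not F (fun x => ¬ k.IsFalse x) h
  simp only [not_not] at this
  unfold tru fal
  convert this

/-- Closed sets: no rare clause. -/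
def Cls (t : ℕ) (F : Finset (W → Bool)) : Prop :=
  ∀ k : CCode W t, (fal k F).Nonempty → F.card < 2 ^ (6 * t) * (fal k F).card

/-- The variables of a clause. -/
def vs {t : ℕ} (k : CCode W t) : Finset W :=
  univ.filter fun v => ∃ j, ∃ b, k j = some (v, b)

theorem card_vs_le {t : ℕ} (k : CCode W t) : (vs k).card ≤ t := by
  classical
  have h1 : (vs k).card ≤ (univ.image fun j => (k j).map Prod.fst).card := by
    have h2 : (vs k).image some ⊆ univ.image fun j => (k j).map Prod.fst := by
      intro o ho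
      obtain ⟨v, hv, rfl⟩ := mem_image.1 ho
      simp only [vs, mem_filter, mem_univ, true_and] at hv
      obtain ⟨j, b, hj⟩ := hv
      exact mem_image.2 ⟨j, mem_univ _, by rw [hj]; rfl⟩
    have h3 := card_le_card h2
    rwa [card_image_of_injective _ (Option.some_injective _)] at h3
  refine h1.trans (card_image_le.trans ?_)
  simp

theorem isFalse_congr {t : ℕ} {k : CCode W t} {x x' : W → Bool} (h : ∀ v ∈ vs k, x v = x' v) :
    k.IsFalse x ↔ k.IsFalse x' := by
  unfold CCode.IsFalse
  constructor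
  · intro h1 j v b hj
    rw [← h v (by simp only [vs, mem_filter, mem_univ, true_and]; exact ⟨j, b, hj⟩)]
    exact h1 j v b hj
  · intro h1 j v b hj
    rw [h v (by simp only [vs, mem_filter, mem_univ, true_and]; exact ⟨j, b, hj⟩)]
    exact h1 j v b hj

theorem isT_tru {t : ℕ} {J : Finset W} {y : W → Bool} {F : Finset (W → Bool)}
    (hF : IsT t J y F) (k : CCode W t) : IsT t J y (tru k F) := by
  refine ⟨fun z hz => hF.1 (mem_tru.1 hz).1, fun z hz hzF => ?_⟩
  by_cases h : z ∈ F
  · refine ⟨k, ?_, fun x hx => (mem_tru.1 hx).2⟩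
    by_contra h1
    exact hzF (mem_tru.2 ⟨h, h1⟩)
  · obtain ⟨k', h1, h2⟩ := hF.2 z hz h
    exact ⟨k', h1, fun x hx => h2 x (mem_tru.1 hx).1⟩

theorem isT_fal {t : ℕ} (ht : 1 ≤ t) {J : Finset W} {y : W → Bool} {F : Finset (W → Bool)}
    (hF : IsT t J y F) (k : CCode W t) : IsT t J y (fal k F) := by
  refine ⟨fun z hz => hF.1 (mem_fal.1 hz).1, fun z hz hzF => ?_⟩
  by_cases h : z ∈ F
  · have h1 : ¬ k.IsFalse z := fun h1 => hzF (mem_fal.2 ⟨h, h1⟩)
    unfold CCode.IsFalse at h1
    push Not at h1
    obtain ⟨j, v, b, hj, hb⟩ := h1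
    refine ⟨fun i => if (i : ℕ) = 0 then some (v, !b) else none, ?_, ?_⟩
    · intro i v' b' hi
      simp only at hi
      split_ifs at hi with h0
      rw [Option.some.injEq, Prod.mk.injEq] at hi
      obtain ⟨rfl, rfl⟩ := hi
      cases hzv : z v <;> cases b <;> simp_all
    · intro x hx hx2
      have h3 := (mem_fal.1 hx).2 j v b hj
      have h4 := hx2 ⟨0, ht⟩ v (!b) (by simp)
      rw [h3] at h4
      cases b <;> simp at h4
  · obtain ⟨k', h1, h2⟩ := hF.2 z hz h
    exact ⟨k', h1, fun x hx => h2 x (mem_fal.1 hx).1⟩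

/-- `F` is constant on `Z`. -/
def Cst (Z : Finset W) (F : Finset (W → Bool)) : Prop :=
  ∀ x ∈ F, ∀ x' ∈ F, ∀ v ∈ Z, x v = x' v

/-- **Decomposition** of a narrow CNF set into closed ones. -/
theorem pieces {t : ℕ} (ht : 1 ≤ t) (J : Finset W) (y : W → Bool) : ∀ (n : ℕ)
    (F : Finset (W → Bool)) (Z : Finset W), F.card = n → IsT t J y F → Z ⊆ J → Cst Z F →
    ∃ L : List (Finset W × Finset (W → Bool)),
      (∀ p ∈ L, Z ⊆ p.1 ∧ p.1 ⊆ J ∧ IsT t J y p.2 ∧ Cls t p.2 ∧ Cst p.1 p.2 ∧
        p.2.card * 2 ^ (6 * p.1.card) ≤ F.card * 2 ^ (6 * Z.card)) ∧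
      (∀ h : (W → Bool) → ℝ, ∑ z ∈ F, h z = (L.map fun p => ∑ z ∈ p.2, h z).sum) ∧
      ∀ U, U ⊆ J → (L.map fun p => if p.1 ⊆ U then pr U p.2 else 0).sum ≤ pr U F := by
  intro n
  induction n using Nat.strong_induction_on with
  | _ n ih =>
  intro F Z hn hF hZ hcst
  by_cases hcl : Cls t F
  · refine ⟨[(Z, F)], ?_, fun h => by simp, fun U _ => ?_⟩
    · intro p hp
      rw [List.mem_singleton] at hp
      subst hp
      exact ⟨Subset.rfl, hZ, hF, hcl, hcst, le_rfl⟩
    · simp only [List.map_cons, List.map_nil, List.sum_cons, List.sum_nil, add_zero]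
      split_ifs
      · exact le_rfl
      · exact Nat.zero_le _
  · unfold Cls at hcl
    push Not at hcl
    obtain ⟨k, hne, hrare⟩ := hcl
    have hc := card_tru_add_fal k F
    have hpos : 0 < (fal k F).card := card_pos.2 hne
    have hM : 2 ≤ 2 ^ (6 * t) := by
      calc 2 = 2 ^ 1 := rfl
        _ ≤ 2 ^ (6 * t) := Nat.pow_le_pow_right (by norm_num) (by omega)
    have hlt1 : (tru k F).card < n := by omega
    have hlt2 : (fal k F).card < n := by nlinarith
    set Z' : Finset W := Z ∪ (vs k ∩ J) with hZ'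
    have hZ'J : Z' ⊆ J := union_subset hZ inter_subset_right
    have hcst' : Cst Z' (fal k F) := by
      intro x hx x' hx' v hv
      rw [mem_fal] at hx hx'
      rcases mem_union.1 hv with h | h
      · exact hcst x hx.1 x' hx'.1 v h
      · have h1 := (mem_inter.1 h).1
        simp only [vs, mem_filter, mem_univ, true_and] at h1
        obtain ⟨j, b, hj⟩ := h1
        rw [hx.2 j v b hj, hx'.2 j v b hj]
    obtain ⟨L1, a1, b1, c1⟩ := ih _ hlt1 (tru k F) Z rfl (isT_tru hF k) hZ
      (fun x hx x' hx' => hcst x (mem_tru.1 hx).1 x' (mem_tru.1 hx').1)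
    obtain ⟨L2, a2, b2, c2⟩ := ih _ hlt2 (fal k F) Z' rfl (isT_fal ht hF k) hZ'J hcst'
    refine ⟨L1 ++ L2, ?_, ?_, ?_⟩
    · intro p hp
      rcases List.mem_append.1 hp with h | h
      · obtain ⟨h1, h2, h3, h4, h5, h6⟩ := a1 p h
        refine ⟨h1, h2, h3, h4, h5, h6.trans (Nat.mul_le_mul_right _ (by omega))⟩
      · obtain ⟨h1, h2, h3, h4, h5, h6⟩ := a2 p h
        refine ⟨subset_union_left.trans h1, h2, h3, h4, h5, h6.trans ?_⟩
        have h7 : Z'.card ≤ Z.card + t :=
          (card_union_le _ _).trans (Nat.add_le_add_left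
            ((card_le_card inter_subset_left).trans (card_vs_le k)) _)
        calc (fal k F).card * 2 ^ (6 * Z'.card)
            ≤ (fal k F).card * 2 ^ (6 * (Z.card + t)) := by
              apply Nat.mul_le_mul_left
              exact Nat.pow_le_pow_right (by norm_num) (by omega)
          _ = 2 ^ (6 * t) * (fal k F).card * 2 ^ (6 * Z.card) := by
              rw [mul_add, pow_add]; ring
          _ ≤ F.card * 2 ^ (6 * Z.card) := Nat.mul_le_mul_right _ hrare
    · intro h
      rw [List.map_append, List.sum_append, ← b1 h, ← b2 h, sum_tru_add_fal]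
    · intro U hU
      rw [List.map_append, List.sum_append]
      by_cases hZU : Z' ⊆ U
      · refine (add_le_add (c1 U hU) (c2 U hU)).trans ?_
        refine (pr_union_le U (tru k F) (fal k F) ?_).trans (pr_mono ?_)
        · intro x hx x' hx' hxx
          rw [mask_eq_iff] at hxx
          rw [mem_tru] at hx
          rw [mem_fal] at hx'
          refine hx.2 ((isFalse_congr fun v hv => ?_).2 hx'.2)
          by_cases hvJ : v ∈ J
          · exact hxx v (hZU (mem_union_right _ (mem_inter.2 ⟨hv, hvJ⟩)))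
          · rw [mem_cube.1 (hF.1 hx.1) v hvJ, mem_cube.1 (hF.1 hx'.1) v hvJ]
        · exact union_subset (fun z hz => (mem_tru.1 hz).1) (fun z hz => (mem_fal.1 hz).1)
      · have h0 : (L2.map fun p => if p.1 ⊆ U then pr U p.2 else 0).sum = 0 := by
          rw [List.sum_eq_zero]
          intro n hn
          obtain ⟨p, hp, rfl⟩ := List.mem_map.1 hn
          rw [if_neg]
          exact fun h => hZU ((a2 p hp).1.trans h)
        rw [h0, add_zero]
        exact (c1 U hU).trans (pr_mono fun z hz => (mem_tru.1 hz).1)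

end Vale.Agent.P336.Shear
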