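import Mathlib

/-!
# P336: a projection inequality of Shearer type

`pr W D` is the number of different restrictions of the points of `D` to `W`.
-/

set_option linter.unusedSectionVars false

namespace Vale.Agent.P336.Shear

open Finset

variable {V : Type} [Fintype V] [DecidableEq V]

/-- Forget the values outside `W`. -/
def mask (W : Finset V) (x : V → Bool) : V → Bool := fun v => if v ∈ W then x v else false

theorem mask_eq_iff {W : Finset V} {x x' : V → Bool} :
    mask W x = mask W x' ↔ ∀ v ∈ W, x v = x' v := by
  constructor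
  · intro h v hv
    have := congrFun h v
    simpa [mask, hv] using this
  · intro h
    funext v
    by_cases hv : v ∈ W
    · simp [mask, hv, h v hv]
    · simp [mask, hv]

/-- The number of restrictions to `W` of the points of `D`. -/
def pr (W : Finset V) (D : Finset (V → Bool)) : ℕ := (D.image (mask W)).card

theorem pr_mono {W : Finset V} {D E : Finset (V → Bool)} (h : D ⊆ E) : pr W D ≤ pr W E :=
  card_le_card (image_subset_image h)

theorem pr_le (W : Finset V) (D : Finset (V → Bool)) : pr W D ≤ 2 ^ W.card := by
  have h1 : D.image (mask W) ⊆ (Fintype.piFinset fun v =>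
      if v ∈ W then (univ : Finset Bool) else {false}) := by
    intro y hy
    obtain ⟨x, -, rfl⟩ := mem_image.1 hy
    rw [Fintype.mem_piFinset]
    intro v
    by_cases hv : v ∈ W <;> simp [mask, hv]
  refine (card_le_card h1).trans (le_of_eq ?_)
  rw [Fintype.card_piFinset]
  have h2 : ∀ v, (if v ∈ W then (univ : Finset Bool) else {false}).card =
      if v ∈ W then 2 else 1 := by
    intro v
    split_ifs <;> simp
  rw [prod_congr rfl fun v _ => h2 v, prod_ite_mem, univ_inter, prod_const]

theorem pr_union_le (W : Finset V) (D E : Finset (V → Bool))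
    (h : ∀ x ∈ D, ∀ y ∈ E, mask W x ≠ mask W y) : pr W D + pr W E ≤ pr W (D ∪ E) := by
  unfold pr
  rw [image_union, card_union_of_disjoint]
  rw [disjoint_left]
  intro z hz hz'
  obtain ⟨x, hx, rfl⟩ := mem_image.1 hz
  obtain ⟨y, hy, hxy⟩ := mem_image.1 hz'
  exact h x hx y hy hxy.symm

theorem pr_le_insert (W : Finset V) (D : Finset (V → Bool)) (j : V) :
    pr W D ≤ pr (insert j W) D := by
  have h1 : (D.image (mask (insert j W))).image (mask W) = D.image (mask W) := by
    rw [image_image]
    refine image_congr fun x _ => ?_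
    funext v
    by_cases hv : v ∈ W <;> simp [mask, hv]
  unfold pr
  rw [← h1]
  exact card_image_le

theorem pr_insert (W : Finset V) (D : Finset (V → Bool)) (j : V) :
    pr W (D.filter fun x => x j = true) + pr W (D.filter fun x => x j = false) ≤
      pr (insert j W) D := by
  have h1 := pr_le_insert W (D.filter fun x => x j = true) j
  have h2 := pr_le_insert W (D.filter fun x => x j = false) j
  have h3 := pr_union_le (insert j W) (D.filter fun x => x j = true)
    (D.filter fun x => x j = false) (by
      intro x hx y hy hxy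
      have h4 := mask_eq_iff.1 hxy j (mem_insert_self _ _)
      rw [(mem_filter.1 hx).2, (mem_filter.1 hy).2] at h4
      exact absurd h4 (by decide))
  have h4 : D.filter (fun x => x j = true) ∪ D.filter (fun x => x j = false) ⊆ D :=
    union_subset (filter_subset _ _) (filter_subset _ _)
  exact ((add_le_add h1 h2).trans h3).trans (pr_mono h4)

/-- The average number of restrictions. -/
noncomputable def SS (U : Finset V) (D : Finset (V → Bool)) : ℝ :=
  ∑ W ∈ U.powerset, (1 / 2 : ℝ) ^ W.card * pr W D

theorem SS_nonneg (U : Finset V) (D : Finset (V → Bool)) : 0 ≤ SS U D :=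
  sum_nonneg fun _ _ => by positivity

theorem SS_mono (U : Finset V) {D E : Finset (V → Bool)} (h : D ⊆ E) : SS U D ≤ SS U E := by
  refine sum_le_sum fun W _ => mul_le_mul_of_nonneg_left ?_ (by positivity)
  exact_mod_cast pr_mono h

/-- **Projection inequality.** -/
theorem shear (U : Finset V) : ∀ D : Finset (V → Bool),
    (∀ x ∈ D, ∀ x' ∈ D, ∀ v, v ∉ U → x v = x' v) →
    (2 : ℝ) ^ U.card * D.card ≤ SS U D ^ 2 := by
  induction U using Finset.induction_on with
  | empty =>
    intro D hD
    have h1 : D.card ≤ 1 := by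
      rw [card_le_one]
      intro x hx x' hx'
      funext v
      exact hD x hx x' hx' v (notMem_empty _)
    have h2 : D.card ≤ pr ∅ D := by
      rcases D.eq_empty_or_nonempty with rfl | h3
      · simp
      · exact h1.trans (card_pos.2 (h3.image _))
    have h3 : (D.card : ℝ) ≤ 1 := by exact_mod_cast h1
    have h4 : (D.card : ℝ) ≤ pr ∅ D := by exact_mod_cast h2
    have h0 : (0 : ℝ) ≤ D.card := Nat.cast_nonneg _
    simp only [SS, powerset_empty, sum_singleton, card_empty, pow_zero, one_mul]
    calc (D.card : ℝ) ≤ D.card * pr ∅ D := by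
          rcases D.eq_empty_or_nonempty with rfl | h5
          · simp
          · have h6 : (1 : ℝ) ≤ pr ∅ D := by exact_mod_cast card_pos.2 (h5.image _)
            nlinarith
      _ ≤ pr ∅ D * pr ∅ D := mul_le_mul_of_nonneg_right h4 (Nat.cast_nonneg _)
      _ = (pr ∅ D : ℝ) ^ 2 := by ring
  | insert j U hj ih =>
    intro D hD
    set D1 := D.filter fun x => x j = true with hD1
    set D0 := D.filter fun x => x j = false with hD0
    have hc1 : ∀ x ∈ D1, ∀ x' ∈ D1, ∀ v, v ∉ U → x v = x' v := by
      intro x hx x' hx' v hv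
      rw [hD1, mem_filter] at hx hx'
      by_cases hvj : v = j
      · rw [hvj, hx.2, hx'.2]
      · exact hD x hx.1 x' hx'.1 v (by simp [hvj, hv])
    have hc0 : ∀ x ∈ D0, ∀ x' ∈ D0, ∀ v, v ∉ U → x v = x' v := by
      intro x hx x' hx' v hv
      rw [hD0, mem_filter] at hx hx'
      by_cases hvj : v = j
      · rw [hvj, hx.2, hx'.2]
      · exact hD x hx.1 x' hx'.1 v (by simp [hvj, hv])
    have i1 := ih D1 hc1
    have i0 := ih D0 hc0
    have hcard : (D.card : ℝ) = D1.card + D0.card := by
      have h1 := card_filter_add_card_filter_not (s := D) (fun x => x j = true)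
      have h2 : D.filter (fun x => ¬ x j = true) = D0 := by
        rw [hD0]
        refine filter_congr fun x _ => ?_
        simp
      rw [h2] at h1
      exact_mod_cast h1.symm
    have hS : SS (insert j U) D ≥ SS U D + 1 / 2 * (SS U D1 + SS U D0) := by
      unfold SS
      rw [sum_powerset_insert hj, ge_iff_le]
      have h0 : 1 / 2 * (∑ W ∈ U.powerset, (1 / 2 : ℝ) ^ W.card * pr W D1 +
          ∑ W ∈ U.powerset, (1 / 2 : ℝ) ^ W.card * pr W D0) =
          ∑ W ∈ U.powerset, (1 / 2 : ℝ) ^ W.card * (1 / 2 * (pr W D1 + pr W D0)) := by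
        rw [← sum_add_distrib, mul_sum]
        exact sum_congr rfl fun W _ => by ring
      rw [h0]
      refine add_le_add le_rfl (sum_le_sum fun W hW => ?_)
      have hjW : j ∉ W := fun h => hj (mem_powerset.1 hW h)
      rw [card_insert_of_notMem hjW, pow_succ]
      have h1 : (pr W D1 : ℝ) + pr W D0 ≤ pr (insert j W) D := by exact_mod_cast pr_insert W D j
      have h2 : (0 : ℝ) ≤ (1 / 2) ^ W.card := by positivity
      nlinarith
    have m1 := SS_mono U (filter_subset (fun x => x j = true) D)
    have m0 := SS_mono U (filter_subset (fun x => x j = false) D)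
    have n1 := SS_nonneg U D1
    have n0 := SS_nonneg U D0
    rw [← hD1] at m1
    rw [← hD0] at m0
    rw [card_insert_of_notMem hj, pow_succ, hcard]
    have key : 2 * (SS U D1 ^ 2 + SS U D0 ^ 2) ≤ SS (insert j U) D ^ 2 := by
      have hS0 : 0 ≤ SS U D := SS_nonneg U D
      rcases le_total (SS U D1) (SS U D0) with h | h
      · have h5 : 3 / 2 * SS U D0 + 1 / 2 * SS U D1 ≤ SS (insert j U) D := by linarith
        have h6 : (3 / 2 * SS U D0 + 1 / 2 * SS U D1) ^ 2 ≤ SS (insert j U) D ^ 2 :=
          pow_le_pow_left₀ (by positivity) h5 2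
        nlinarith
      · have h5 : 3 / 2 * SS U D1 + 1 / 2 * SS U D0 ≤ SS (insert j U) D := by linarith
        have h6 : (3 / 2 * SS U D1 + 1 / 2 * SS U D0) ^ 2 ≤ SS (insert j U) D ^ 2 :=
          pow_le_pow_left₀ (by positivity) h5 2
        nlinarith
    calc (2 : ℝ) ^ U.card * 2 * (D1.card + D0.card)
        = 2 * (2 ^ U.card * D1.card + 2 ^ U.card * D0.card) := by ring
      _ ≤ 2 * (SS U D1 ^ 2 + SS U D0 ^ 2) := by linarith
      _ ≤ _ := key

end Vale.Agent.P336.Shear
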